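import Vale.Agent.H25.QF.N3

namespace QF

open Finset

/-! N3 (uses N1, N2) -/

open Classical in
theorem success_sum (m r : ℕ) (hm : 2 ≤ m) (hr : 3 ≤ r) (hodd : Odd r) (hrH : r < 2 ^ (m - 1)) :
    ∑ y1 ∈ range (2 ^ m), ∑ y2 ∈ range (2 ^ m),
      (if Succ (2 ^ m) r y1 y2 then scnt (2 ^ m) r y1 y2 else 0) =
      (2 : ℤ) ^ m * (Nat.totient r * ssq m r : ℕ) :=
  N3.success_sum' m r hm hr hodd hrH

end QF
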